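import Vale.Agent.P235.H56.Defs

/-!
# Wagner's step (helper972): 3-connected graphs without a `K_5` minor and with a `K_{3,3}` minor

Literals. A model is a map `f : V → ι` with connected (nonempty) fibres; everything is spanning.
Each row proves `theorem … : XStmt`.
-/

namespace Vale.Agent.P235.K5.W

open SimpleGraph Vale.Agent.P235.H134 Vale.Agent.P235.H56

/-- the fibres of `f` are connected, in particular nonempty -/
def Mdl {V ι : Type} (G : SimpleGraph V) (f : V → ι) : Prop :=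
  ∀ i, (G.induce {v | f v = i}).Connected

/-- the parts `i` and `j` touch -/
def Tch {V ι : Type} (G : SimpleGraph V) (f : V → ι) (i j : ι) : Prop :=
  ∃ u v, f u = i ∧ f v = j ∧ G.Adj u v

/-- the quotient graph -/
def Quo {V ι : Type} (G : SimpleGraph V) (f : V → ι) : SimpleGraph ι where
  Adj i j := i ≠ j ∧ Tch G f i j
  symm := ⟨fun _ _ h => ⟨h.1.symm, h.2.elim fun u hu => hu.elim fun v hv =>
    ⟨v, u, hv.2.1, hv.1, hv.2.2.symm⟩⟩⟩
  loopless := ⟨fun _ h => h.1 rfl⟩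

/-- a (spanning) model of `H` in `G` -/
def Has {V W : Type} (H : SimpleGraph W) (G : SimpleGraph V) : Prop :=
  ∃ f : V → W, Mdl G f ∧ ∀ i j, H.Adj i j → Tch G f i j

/-- `K_5` -/
abbrev KF : SimpleGraph (Fin 5) := ⊤

/-- `V_8`, the Wagner graph: `i` is joined to `i + 1`, `i + 7` and `i + 4` modulo 8 -/
def V8 : SimpleGraph (Fin 8) where
  Adj i j := j = i + 1 ∨ i = j + 1 ∨ j = i + 4
  symm := by constructor; decide
  loopless := by constructor; decide

/-- a spanning model of `K_{3,3}`: parts `inl i` (the `A i`) and `inr j` (the `B j`) -/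
def M33 {V : Type} (G : SimpleGraph V) (f : V → Fin 3 ⊕ Fin 3) : Prop :=
  Mdl G f ∧ ∀ i j, Tch G f (Sum.inl i) (Sum.inr j)

/-- no two `A i` touch -/
def ClA {V : Type} (G : SimpleGraph V) (f : V → Fin 3 ⊕ Fin 3) : Prop :=
  ∀ i i', i ≠ i' → ¬ Tch G f (Sum.inl i) (Sum.inl i')

/-- no two `B j` touch -/
def ClB {V : Type} (G : SimpleGraph V) (f : V → Fin 3 ⊕ Fin 3) : Prop :=
  ∀ j j', j ≠ j' → ¬ Tch G f (Sum.inr j) (Sum.inr j')

/-- the part `a` -/
def part {V ι : Type} (f : V → ι) (a : ι) : Set V := {v | f v = a}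

/-- label `j` of the vertex `x`: `x` has a neighbour in the part `o j` -/
def lab {V ι : Type} (G : SimpleGraph V) (f : V → ι) (o : Fin 3 → ι) (x : V) (j : Fin 3) : Prop :=
  ∃ v, f v = o j ∧ G.Adj x v

/-- two labels occur in `P` -/
def Two {V : Type} (P : Set V) (L : V → Fin 3 → Prop) : Prop :=
  ∃ i j, i ≠ j ∧ (∃ x ∈ P, L x i) ∧ ∃ x ∈ P, L x j

/-- FAT: `X` is split into two connected sets, both with two labels -/
def Fat {V : Type} (G : SimpleGraph V) (X : Set V) (L : V → Fin 3 → Prop) : Prop :=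
  ∃ P : Set V, P ⊆ X ∧ (G.induce P).Connected ∧ (G.induce (X \ P)).Connected ∧
    Two P L ∧ Two (X \ P) L

/-- TRI: `X` is split into three connected, pairwise touching sets, with one label each -/
def Tri {V : Type} (G : SimpleGraph V) (X : Set V) (L : V → Fin 3 → Prop) : Prop :=
  ∃ g : V → Fin 3, (∀ j, (G.induce {v | v ∈ X ∧ g v = j}).Connected) ∧
    (∀ i j, i ≠ j → ∃ u ∈ X, ∃ v ∈ X, g u = i ∧ g v = j ∧ G.Adj u v) ∧
    ∀ x ∈ X, ∀ j, L x j → g x = j

/-- HUB: a vertex `h` of `X` such that every connected set of `X` avoiding `h` has at most one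
label -/
def Hub {V : Type} (G : SimpleGraph V) (X : Set V) (L : V → Fin 3 → Prop) : Prop :=
  ∃ h ∈ X, ∀ K : Set V, K ⊆ X → h ∉ K → (G.induce K).Connected → ¬ Two K L

/-- a set `s 0, s 1, s 2` of three vertices with (at least) three closed pieces -/
def Cut3 {V : Type} (G : SimpleGraph V) : Prop :=
  ∃ (s : Fin 3 → V) (C : Fin 3 → Set V), Function.Injective s ∧ (∀ i, (C i).Nonempty) ∧
    (∀ i j, s j ∉ C i) ∧ (∀ i j, i ≠ j → Disjoint (C i) (C j)) ∧
    ∀ i, ∀ u ∈ C i, ∀ v, G.Adj u v → v ∈ C i ∨ ∃ j, v = s j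

/-! ## Rows -/

/-- [W-MK] spanning models and minors. -/
def MkStmt : Prop :=
  ∀ (V W : Type) [Finite V] [Nonempty W] (H : SimpleGraph W) (G : SimpleGraph V), G.Connected →
    (IsMinor H G ↔ Has H G)

/-- [W-QUO] a model in the quotient is a model in the graph. -/
def QuoStmt : Prop :=
  ∀ (V ι W : Type) (H : SimpleGraph W) (G : SimpleGraph V) (f : V → ι), Mdl G f →
    Has H (Quo G f) → Has H G

/-- [W-DICH] an A-A contact and a B-B contact give `K_5`. -/
def DichStmt : Prop :=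
  ∀ (V : Type) (G : SimpleGraph V) (f : V → Fin 3 ⊕ Fin 3), M33 G f → ¬ Has KF G →
    ClA G f ∨ ClB G f

/-- [W-HUB'] the trichotomy. -/
def TrichStmt : Prop :=
  ∀ (V : Type) [Finite V] (G : SimpleGraph V) (X : Set V) (L : V → Fin 3 → Prop),
    (G.induce X).Connected → (∀ j, ∃ x ∈ X, L x j) → Fat G X L ∨ Tri G X L ∨ Hub G X L

/-- [W-PURE] a pure model, or a 3-cut with three pieces. -/
def PureStmt : Prop :=
  ∀ (V : Type) [Finite V] (G : SimpleGraph V) (f : V → Fin 3 ⊕ Fin 3), M33 G f → ¬ Has KF G →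
    (∃ f' : V → Fin 3 ⊕ Fin 3, M33 G f' ∧ ClA G f' ∧ ClB G f') ∨ Cut3 G

/-- [W-CUT] a pure model whose `A i` are all of type HUB. -/
def CutStmt : Prop :=
  ∀ (V : Type) [Finite V] (G : SimpleGraph V) (f : V → Fin 3 ⊕ Fin 3), M33 G f → ClA G f →
    ClB G f → (∀ i, Hub G (part f (Sum.inl i)) (lab G f Sum.inr)) → Cut3 G

/-- [W-TT] TRI and TRI. -/
def TTStmt : Prop :=
  ∀ (V : Type) (G : SimpleGraph V) (f : V → Fin 3 ⊕ Fin 3) (i j : Fin 3), M33 G f →
    Tri G (part f (Sum.inl i)) (lab G f Sum.inr) → Tri G (part f (Sum.inr j)) (lab G f Sum.inl) →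
    Has KF G

/-- [W-TF] TRI and FAT. -/
def TFStmt : Prop :=
  ∀ (V : Type) (G : SimpleGraph V) (f : V → Fin 3 ⊕ Fin 3) (i j : Fin 3), M33 G f →
    Tri G (part f (Sum.inl i)) (lab G f Sum.inr) → Fat G (part f (Sum.inr j)) (lab G f Sum.inl) →
    Has KF G

/-- [W-FAT] FAT and FAT. -/
def FFStmt : Prop :=
  ∀ (V : Type) (G : SimpleGraph V) (f : V → Fin 3 ⊕ Fin 3) (i j : Fin 3), M33 G f →
    Fat G (part f (Sum.inl i)) (lab G f Sum.inr) → Fat G (part f (Sum.inr j)) (lab G f Sum.inl) →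
    Has KF G ∨ Has V8 G

/-- [W-V8] the Wagner graph. -/
def V8Stmt : Prop :=
  ∀ (V : Type) [Finite V] (G : SimpleGraph V), Conn3 G → ¬ Has KF G → Has V8 G →
    Nat.card V = 8 ∧ ∀ x y z, G.Adj x y → G.Adj y z → ¬ G.Adj x z

/-- [W-TRI] a 3-cut `s` with three pieces in a 3-connected graph: each side with the triangle on
`s` is a minor (the pieces `C j`, `C k` are contracted into two vertices of `s`). -/
def SideStmt : Prop :=
  ∀ (V : Type) [Finite V] (G : SimpleGraph V) (s : Fin 3 → V) (C : Fin 3 → Set V), Conn3 G →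
    Function.Injective s → (∀ i, (C i).Nonempty) → (∀ i j, s j ∉ C i) →
    (∀ i j, i ≠ j → Disjoint (C i) (C j)) →
    (∀ i, ∀ u ∈ C i, ∀ v, G.Adj u v → v ∈ C i ∨ ∃ j, v = s j) →
    ∀ i, IsMinor ((G ⊔ SimpleGraph.fromRel fun x y => x ∈ Set.range s ∧ y ∈ Set.range s).induce
      (C i ∪ Set.range s)) G

/-- THEOREM W. -/
def WStmt : Prop :=
  ∀ (V : Type) [Finite V] (G : SimpleGraph V), Conn3 G → IsMinor K33 G → ¬ IsMinor KF G →
    (Nat.card V = 8 ∧ ∀ x y z, G.Adj x y → G.Adj y z → ¬ G.Adj x z) ∨ Cut3 G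

end Vale.Agent.P235.K5.W
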